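import Vale.Agent.P141.H876.WinS

/-!
# P141, line (A): the move of the averaged slot against weights which see `x₀`

Letters of `H841.Lay`, `H876.WinS`. `ρ k x0 j` is any weight whose sums over the cells of `x₀` of
scale `k` are at most `λ 2 ^ k`.

* `mv_sum` : the sum of `ρ` times the squares of the half differences of the slot on a shifted grid;
* `hs2_sum` : the same for the Hilbert-Schmidt norms; `hs2_sumQ` : with the trace of the top matrix.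
-/

namespace Vale.Agent.P141.H893

open Finset Matrix
open Vale.Agent.P141.PL (iv ix hs mem_iv ix_ix card_iv)
open Vale.Agent.P141.H922 (ck iv_iv)
open Vale.Agent.P141.H43 (avv nsq nsq_nonneg)
open Vale.Agent.P141.H841
open Vale.Agent.P141.H876 (wn En En_nonneg wt_Nn En_sumQ)
open Vale.Agent.P141.H420 (Tr)

noncomputable section

/-! ### Series -/

theorem ser_eq (m : ℕ) : ∑ d ∈ range m, ((d : ℝ) ^ 2 * (1 / 2) ^ d) +
    2 * ((m : ℝ) ^ 2 + 2 * m + 3) * (1 / 2) ^ m = 6 := by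
  induction m with
  | zero => norm_num
  | succ m ih =>
    rw [sum_range_succ]
    have h : ((1 : ℝ) / 2) ^ (m + 1) = (1 / 2) ^ m * (1 / 2) := pow_succ _ _
    rw [h]
    push_cast
    linear_combination ih

/-- the weight of the distance of two scales -/
def gw (d : ℕ) : ℝ := (d : ℝ) ^ 2 * (1 / 2) ^ d

theorem gw_nonneg (d : ℕ) : 0 ≤ gw d := by
  unfold gw
  positivity

theorem ser_le (m : ℕ) : ∑ d ∈ range m, gw d ≤ 6 := by
  have h := ser_eq m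
  have h2 : 0 ≤ 2 * ((m : ℝ) ^ 2 + 2 * m + 3) * (1 / 2) ^ m := by positivity
  unfold gw
  linarith

theorem sum_inj_le {s t : Finset ℕ} {φ : ℕ → ℕ} (h1 : ∀ k ∈ s, φ k ∈ t)
    (h2 : ∀ a ∈ s, ∀ b ∈ s, φ a = φ b → a = b) : ∑ k ∈ s, gw (φ k) ≤ ∑ d ∈ t, gw d := by
  have e : ∑ k ∈ s, gw (φ k) = ∑ d ∈ s.image φ, gw d :=
    (sum_image fun a ha b hb hab => h2 a ha b hb hab).symm
  rw [e]
  refine sum_le_sum_of_subset_of_nonneg (fun m hm => ?_) fun _ _ _ => gw_nonneg _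
  obtain ⟨k, hk, rfl⟩ := mem_image.1 hm
  exact h1 k hk

/-- the weight of the layer `i + 1` in the move of the scale `k`, deviation at the scale `q` -/
def cw (q i : ℕ) : ℝ := if i < q then gw (q - i) else gw (i + 1 - q)

theorem cw_nonneg (q i : ℕ) : 0 ≤ cw q i := by
  unfold cw
  split_ifs <;> exact gw_nonneg _

theorem cw_sum (n i a : ℕ) : ∑ k ∈ range n, cw (k + a) i ≤ 12 := by
  have e : ∑ k ∈ range n, cw (k + a) i =
      ∑ k ∈ (range n).filter (fun k => i < k + a), gw (k + a - i) +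
      ∑ k ∈ (range n).filter (fun k => ¬ i < k + a), gw (i + 1 - (k + a)) := by
    rw [← sum_filter_add_sum_filter_not (range n) (fun k => i < k + a)]
    congr 1
    · refine sum_congr rfl fun k hk => ?_
      unfold cw
      rw [if_pos (mem_filter.1 hk).2]
    · refine sum_congr rfl fun k hk => ?_
      unfold cw
      rw [if_neg (mem_filter.1 hk).2]
  rw [e]
  have h1 : ∑ k ∈ (range n).filter (fun k => i < k + a), gw (k + a - i) ≤
      ∑ d ∈ range (n + a + 1), gw d := by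
    refine sum_inj_le (fun k hk => ?_) fun x hx y hy hxy => ?_
    · have := mem_range.1 (mem_filter.1 hk).1
      rw [mem_range]
      omega
    · have := (mem_filter.1 hx).2
      have := (mem_filter.1 hy).2
      omega
  have h2 : ∑ k ∈ (range n).filter (fun k => ¬ i < k + a), gw (i + 1 - (k + a)) ≤
      ∑ d ∈ range (i + 2), gw d := by
    refine sum_inj_le (fun k hk => ?_) fun x hx y hy hxy => ?_
    · rw [mem_range]
      omega
    · have := (mem_filter.1 hx).2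
      have := (mem_filter.1 hy).2
      omega
  have := ser_le (n + a + 1)
  have := ser_le (i + 2)
  linarith

/-! ### Shifted cells which meet a boundary -/

theorem ix_mono {i : ℕ} {a b : ℤ} (h : a ≤ b) : ix i a ≤ ix i b := by
  unfold PL.ix
  exact Int.ediv_le_ediv (by positivity) h

theorem ix_add (i : ℕ) (a m : ℤ) : ix i (a + 2 ^ i * m) = ix i a + m := by
  unfold PL.ix
  rw [Int.add_mul_ediv_left _ _ (by positivity)]

/-- the left end of the shifted cell `j` of scale `k + 1` -/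
def pt (sh : ℤ) (k : ℕ) (j : ℤ) : ℤ := 2 ^ (k + 1) * j + sh

theorem pt_succ (sh : ℤ) (k : ℕ) (j : ℤ) : pt sh k (j + 1) = pt sh k j + 2 ^ (k + 1) := by
  unfold pt
  ring

theorem st_pt (sh : ℤ) {k q : ℕ} (hq : q ≤ k + 1) (j : ℤ) : st sh q (pt sh k j) = pt sh k j := by
  unfold H841.st pt
  have e : (2 : ℤ) ^ (k + 1) * j + sh - sh = 2 ^ q * (2 ^ (k + 1 - q) * j) := by
    have : (2 : ℤ) ^ (k + 1) = 2 ^ q * 2 ^ (k + 1 - q) := by
      rw [← pow_add, Nat.add_sub_cancel' hq]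
    rw [this]
    ring
  have e2 : ix q ((2 : ℤ) ^ (k + 1) * j + sh - sh) = 2 ^ (k + 1 - q) * j := by
    rw [e]
    have := ix_add q 0 (2 ^ (k + 1 - q) * j)
    rw [zero_add] at this
    rw [this]
    unfold PL.ix
    simp
  rw [e2]
  have : (2 : ℤ) ^ (k + 1) = 2 ^ q * 2 ^ (k + 1 - q) := by
    rw [← pow_add, Nat.add_sub_cancel' hq]
  rw [this]
  ring

theorem tele (f : ℤ → ℤ) (a : ℤ) (n : ℕ) :
    ∑ j ∈ Ico a (a + n), (f (j + 1) - f j) = f (a + n) - f a := by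
  induction n with
  | zero => simp
  | succ n ih =>
    have e : Ico a (a + ((n + 1 : ℕ) : ℤ)) = insert (a + n) (Ico a (a + n)) := by
      ext x
      simp only [mem_Ico, mem_insert]
      push_cast
      omega
    rw [e, sum_insert (by simp), ih]
    push_cast
    ring_nf

/-- **The number of shifted cells which meet a boundary of scale `i`.** -/
theorem count_le (sh : ℤ) {n k q i : ℕ} (hk : k < n) (hq : q ≤ k + 1) (hi : i ≤ n) (R : ℤ) :
    ∑ j ∈ iv (n - (k + 1)) R, (if ix i (pt sh k j) = ix i (pt sh k j + 2 ^ q) then (0 : ℝ) else 1) ≤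
      2 ^ (n - i) := by
  have h1 : ∀ j ∈ iv (n - (k + 1)) R,
      (if ix i (pt sh k j) = ix i (pt sh k j + 2 ^ q) then (0 : ℝ) else 1) ≤
        ((ix i (pt sh k (j + 1)) - ix i (pt sh k j) : ℤ) : ℝ) := by
    intro j _
    have hp : (2 : ℤ) ^ q ≤ 2 ^ (k + 1) := pow_le_pow_right₀ (by norm_num) hq
    have hp0 : (0 : ℤ) < 2 ^ q := by positivity
    have a1 : ix i (pt sh k j) ≤ ix i (pt sh k j + 2 ^ q) := ix_mono (by linarith)
    have a2 : ix i (pt sh k j + 2 ^ q) ≤ ix i (pt sh k (j + 1)) := by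
      rw [pt_succ]
      exact ix_mono (by linarith)
    split_ifs with h
    · have : 0 ≤ ix i (pt sh k (j + 1)) - ix i (pt sh k j) := by linarith
      exact_mod_cast this
    · have : 1 ≤ ix i (pt sh k (j + 1)) - ix i (pt sh k j) := by
        have : ix i (pt sh k j) < ix i (pt sh k j + 2 ^ q) := lt_of_le_of_ne a1 h
        linarith
      exact_mod_cast this
  refine (sum_le_sum h1).trans ?_
  rw [← Int.cast_sum]
  have e : iv (n - (k + 1)) R = Ico (2 ^ (n - (k + 1)) * R)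
      (2 ^ (n - (k + 1)) * R + ((2 ^ (n - (k + 1)) : ℕ) : ℤ)) := by
    unfold PL.iv
    push_cast
    rfl
  rw [e, tele (fun j => ix i (pt sh k j))]
  have e2 : pt sh k (2 ^ (n - (k + 1)) * R + ((2 ^ (n - (k + 1)) : ℕ) : ℤ)) =
      pt sh k (2 ^ (n - (k + 1)) * R) + 2 ^ i * 2 ^ (n - i) := by
    unfold pt
    push_cast
    have e3 : (2 : ℤ) ^ (k + 1) * 2 ^ (n - (k + 1)) = 2 ^ n := by
      rw [← pow_add, Nat.add_sub_cancel' hk]
    have e4 : (2 : ℤ) ^ i * 2 ^ (n - i) = 2 ^ n := by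
      rw [← pow_add, Nat.add_sub_cancel' hi]
    rw [e4, ← e3]
    ring
  rw [e2, ix_add]
  push_cast
  linarith

/-- **The weights of the deviation summed over the shifted cells.** -/
theorem om_sum (sh : ℤ) {n k q i : ℕ} (hk : k < n) (hkq : k ≤ q) (hq : q ≤ k + 1) (hi : i < n)
    (R : ℤ) :
    2 ^ (k + 1) * (2 ^ (k - (i + 1)) * ∑ j ∈ iv (n - (k + 1)) R, om sh q i (pt sh k j)) ≤
      2 ^ n * (32 * cw q i) := by
  rcases lt_or_ge i q with h | h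
  · have e1 : ∀ j ∈ iv (n - (k + 1)) R, om sh q i (pt sh k j) =
        8 * ((q - i : ℕ) : ℝ) ^ 2 * ((4 : ℝ) ^ (q - i))⁻¹ := by
      intro j _
      unfold H841.om
      rw [if_pos h]
    rw [sum_congr rfl e1, sum_const, card_iv, nsmul_eq_mul]
    push_cast
    unfold cw gw
    rw [if_pos h]
    set d := q - i with hd
    have e2 : (2 : ℝ) ^ n = 2 ^ (k + 1) * 2 ^ (n - (k + 1)) := by
      rw [← pow_add, Nat.add_sub_cancel' hk]
    have e3 : (2 : ℝ) ^ (k - (i + 1)) ≤ 2 ^ d := pow_le_pow_right₀ (by norm_num) (by omega)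
    have e4 : ((4 : ℝ) ^ d)⁻¹ * 2 ^ d = (1 / 2) ^ d := by
      rw [← inv_pow, ← mul_pow]
      norm_num
    have e5 : (0 : ℝ) ≤ 2 ^ n := by positivity
    calc (2 : ℝ) ^ (k + 1) * (2 ^ (k - (i + 1)) * (2 ^ (n - (k + 1)) *
          (8 * (d : ℝ) ^ 2 * (4 ^ d)⁻¹))) =
          2 ^ n * (8 * (d : ℝ) ^ 2 * (4 ^ d)⁻¹) * 2 ^ (k - (i + 1)) := by rw [e2]; ring
      _ ≤ 2 ^ n * (8 * (d : ℝ) ^ 2 * (4 ^ d)⁻¹) * 2 ^ d :=
        mul_le_mul_of_nonneg_left e3 (by positivity)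
      _ = 2 ^ n * (8 * ((d : ℝ) ^ 2 * (1 / 2) ^ d)) := by rw [← e4]; ring
      _ ≤ 2 ^ n * (32 * ((d : ℝ) ^ 2 * (1 / 2) ^ d)) := by
        refine mul_le_mul_of_nonneg_left (mul_le_mul_of_nonneg_right (by norm_num) (by positivity)) e5
  · have hn : ¬ i < q := not_lt.2 h
    set d := i + 1 - q with hd
    have e1 : ∀ j ∈ iv (n - (k + 1)) R, om sh q i (pt sh k j) = 8 * (d : ℝ) ^ 2 *
        (if ix i (pt sh k j) = ix i (pt sh k j + 2 ^ q) then (0 : ℝ) else 1) := by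
      intro j _
      unfold H841.om
      rw [if_neg hn, st_pt sh hq]
      split_ifs <;> simp [hd]
    rw [sum_congr rfl e1, ← mul_sum]
    have e2 : k - (i + 1) = 0 := by omega
    rw [e2, pow_zero, one_mul]
    unfold cw gw
    rw [if_neg hn, ← hd]
    have e3 : (2 : ℝ) ^ (k + 1) * 2 ^ (n - i) * 2 ^ d ≤ 4 * 2 ^ n := by
      have e6 : (4 : ℝ) * 2 ^ n = 2 ^ (n + 2) := by rw [pow_add]; ring
      rw [e6, ← pow_add, ← pow_add]
      exact pow_le_pow_right₀ (by norm_num) (by omega)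
    have e4 : (2 : ℝ) ^ (k + 1) * 2 ^ (n - i) ≤ 4 * 2 ^ n * (1 / 2) ^ d := by
      have e7 : ((1 : ℝ) / 2) ^ d * 2 ^ d = 1 := by
        rw [← mul_pow]
        norm_num
      have e8 := mul_le_mul_of_nonneg_right e3 (by positivity : (0 : ℝ) ≤ (1 / 2) ^ d)
      calc (2 : ℝ) ^ (k + 1) * 2 ^ (n - i) = 2 ^ (k + 1) * 2 ^ (n - i) * 2 ^ d * (1 / 2) ^ d := by
            rw [mul_assoc _ ((2 : ℝ) ^ d), mul_comm ((2 : ℝ) ^ d), e7, mul_one]
        _ ≤ _ := e8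
    calc (2 : ℝ) ^ (k + 1) * (8 * (d : ℝ) ^ 2 * ∑ j ∈ iv (n - (k + 1)) R,
          (if ix i (pt sh k j) = ix i (pt sh k j + 2 ^ q) then (0 : ℝ) else 1)) ≤
          2 ^ (k + 1) * (8 * (d : ℝ) ^ 2 * 2 ^ (n - i)) :=
        mul_le_mul_of_nonneg_left (mul_le_mul_of_nonneg_left (count_le sh hk hq hi.le R)
          (by positivity)) (by positivity)
      _ = 8 * (d : ℝ) ^ 2 * (2 ^ (k + 1) * 2 ^ (n - i)) := by ring
      _ ≤ 8 * (d : ℝ) ^ 2 * (4 * 2 ^ n * (1 / 2) ^ d) :=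
        mul_le_mul_of_nonneg_left e4 (by positivity)
      _ = 2 ^ n * (32 * ((d : ℝ) ^ 2 * (1 / 2) ^ d)) := by ring

variable {ι : Type*} [Fintype ι] {Mx : ℕ → ℤ → Matrix ι ι ℝ} {o x1 T M3 : ℤ}
  {s : ℕ → ℤ → ℤ → ℝ} {n : ℕ}

/-! ### One half difference -/

omit [Fintype ι] in
theorem half_eq (sh : ℤ) (k : ℕ) (x0 j : ℤ) :
    (1 / 2 : ℝ) • (Rs Mx o x1 s n sh k x0 (2 * j) - Rs Mx o x1 s n sh k x0 (2 * j + 1)) =
      Rs Mx o x1 s n sh k x0 (2 * j) - Rs Mx o x1 s n sh (k + 1) x0 j := by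
  have h : Rs Mx o x1 s n sh (k + 1) x0 j = (1 / 2 : ℝ) • (Rs Mx o x1 s n sh k x0 (2 * j) +
      Rs Mx o x1 s n sh k x0 (2 * j + 1)) := by
    unfold H841.Rs
    exact H43.avv_half k j _
  rw [h]
  module

theorem ix_pt (sh : ℤ) (k : ℕ) (j : ℤ) : ix k (pt sh k j - sh) = 2 * j := by
  unfold pt
  have e : (2 : ℤ) ^ (k + 1) * j + sh - sh = 0 + 2 ^ k * (2 * j) := by
    rw [pow_succ]
    ring
  rw [e, ix_add]
  unfold PL.ix
  simp

theorem ix_pt' (sh : ℤ) (k : ℕ) (j : ℤ) : ix (k + 1) (pt sh k j - sh) = j := by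
  unfold pt
  have e : (2 : ℤ) ^ (k + 1) * j + sh - sh = 0 + 2 ^ (k + 1) * j := by ring
  rw [e, ix_add]
  unfold PL.ix
  simp

/-- **One half difference by the layers at three points.** -/
theorem half_le (hs1 : ∀ k a b, |s k a b| ≤ 1) (sh : ℤ) {k : ℕ} (hk : k < n) (x0 j : ℤ)
    (w : ι → ℝ) :
    nsq (((1 / 2 : ℝ) • (Rs Mx o x1 s n sh k x0 (2 * j) - Rs Mx o x1 s n sh k x0 (2 * j + 1))) *ᵥ w)
      ≤ 4 * ∑ i ∈ range n, om sh k i (pt sh k j) * (Nn Mx o x1 (i + 1) x0 (pt sh k j) w +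
          Nn Mx o x1 (i + 1) x0 (pt sh k j + 2 ^ k) w) +
        4 * ∑ i ∈ range n, om sh (k + 1) i (pt sh k j) * (Nn Mx o x1 (i + 1) x0 (pt sh k j) w +
          Nn Mx o x1 (i + 1) x0 (pt sh k j + 2 ^ (k + 1)) w) +
        2 * Nn Mx o x1 (k + 1) x0 (pt sh k j) w := by
  set y := pt sh k j with hy
  have d1 := dev_le (Mx := Mx) (o := o) (x1 := x1) hs1 n sh hk.le x0 y w
  have d2 := dev_le (Mx := Mx) (o := o) (x1 := x1) hs1 n sh (Nat.succ_le_of_lt hk) x0 y w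
  rw [hy, ix_pt, ← hy] at d1
  have e2 : ix (k + 1) (y - sh) = j := by rw [hy, ix_pt']
  rw [Nat.succ_eq_add_one, e2] at d2
  have s1 : st sh k y = y := st_pt sh (Nat.le_succ k) j
  have s2 : st sh (k + 1) y = y := st_pt sh le_rfl j
  rw [s1] at d1
  rw [s2] at d2
  have e3 : Rm Mx o x1 s n k x0 y - Rm Mx o x1 s n (k + 1) x0 y = Lm Mx o x1 s (k + 1) x0 y := by
    unfold H841.Rm
    rw [← Finset.sum_Ico_consecutive _ (Nat.le_succ k) hk, Nat.Ico_succ_singleton, sum_singleton,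
      add_sub_cancel_right]
  have e4 : (Rs Mx o x1 s n sh k x0 (2 * j) - Rs Mx o x1 s n sh (k + 1) x0 j) *ᵥ w =
      ((Rs Mx o x1 s n sh k x0 (2 * j) - Rm Mx o x1 s n k x0 y) *ᵥ w -
        (Rs Mx o x1 s n sh (k + 1) x0 j - Rm Mx o x1 s n (k + 1) x0 y) *ᵥ w) +
        Lm Mx o x1 s (k + 1) x0 y *ᵥ w := by
    rw [← e3, ← sub_mulVec, ← add_mulVec]
    congr 1
    abel
  rw [half_eq, e4]
  have n1 := nsq_add_le ((Rs Mx o x1 s n sh k x0 (2 * j) - Rm Mx o x1 s n k x0 y) *ᵥ w -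
    (Rs Mx o x1 s n sh (k + 1) x0 j - Rm Mx o x1 s n (k + 1) x0 y) *ᵥ w)
    (Lm Mx o x1 s (k + 1) x0 y *ᵥ w)
  have n2 := nsq_sub_le ((Rs Mx o x1 s n sh k x0 (2 * j) - Rm Mx o x1 s n k x0 y) *ᵥ w)
    ((Rs Mx o x1 s n sh (k + 1) x0 j - Rm Mx o x1 s n (k + 1) x0 y) *ᵥ w)
  have n3 := Lm_le (Mx := Mx) (o := o) (x1 := x1) hs1 (k + 1) x0 y w
  linarith

/-! ### The sum -/

/-- points of the shifted root -/
theorem pt_root {sh R : ℤ} (h1 : M3 - 1 ≤ ix n (2 ^ n * R + sh))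
    (h2 : ix n (2 ^ n * R + 2 ^ n + sh) ≤ M3 + 1) {k : ℕ} (hk : k < n) {j : ℤ}
    (hj : j ∈ iv (n - (k + 1)) R) {d : ℤ} (hd : 0 ≤ d) (hd2 : d ≤ 2 ^ (k + 1)) :
    M3 - 1 ≤ ix n (pt sh k j + d) ∧ ix n (pt sh k j + d) ≤ M3 + 1 := by
  unfold PL.iv at hj
  rw [mem_Ico] at hj
  have e : (2 : ℤ) ^ (k + 1) * 2 ^ (n - (k + 1)) = 2 ^ n := by
    rw [← pow_add, Nat.add_sub_cancel' hk]
  have hp : (0 : ℤ) < 2 ^ (k + 1) := by positivity
  have a1 : (2 : ℤ) ^ n * R ≤ 2 ^ (k + 1) * j := by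
    have := mul_le_mul_of_nonneg_left hj.1 hp.le
    calc (2 : ℤ) ^ n * R = 2 ^ (k + 1) * (2 ^ (n - (k + 1)) * R) := by rw [← e]; ring
      _ ≤ _ := this
  have a2 : (2 : ℤ) ^ (k + 1) * j + 2 ^ (k + 1) ≤ 2 ^ n * R + 2 ^ n := by
    have h3 : j + 1 ≤ 2 ^ (n - (k + 1)) * R + 2 ^ (n - (k + 1)) := hj.2
    have := mul_le_mul_of_nonneg_left h3 hp.le
    calc (2 : ℤ) ^ (k + 1) * j + 2 ^ (k + 1) = 2 ^ (k + 1) * (j + 1) := by ring
      _ ≤ 2 ^ (k + 1) * (2 ^ (n - (k + 1)) * R + 2 ^ (n - (k + 1))) := this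
      _ = 2 ^ n * R + 2 ^ n := by rw [← e]; ring
  refine ⟨h1.trans (ix_mono ?_), (ix_mono ?_).trans h2⟩ <;> unfold pt <;> linarith

/-- **The half differences against a weight which sees `x₀`**, one vector. -/
theorem mv_sum (hs1 : ∀ k a b, |s k a b| ≤ 1) (ho : o = 1 ∨ o = -1) {sh R : ℤ}
    (h1 : M3 - 1 ≤ ix n (2 ^ n * R + sh)) (h2 : ix n (2 ^ n * R + 2 ^ n + sh) ≤ M3 + 1)
    {ρ : ℕ → ℤ → ℤ → ℝ} {lam : ℝ} (hlam : 0 ≤ lam)
    (hρ0 : ∀ k < n, ∀ j ∈ iv (n - (k + 1)) R, ∀ x0 ∈ iv n T, 0 ≤ ρ k x0 j)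
    (hρ : ∀ k < n, ∀ j ∈ iv (n - (k + 1)) R, ∀ a ∈ iv (n - k) T,
      ∑ x0 ∈ iv k a, ρ k x0 j ≤ lam * 2 ^ k) (w : ι → ℝ) :
    ∑ k ∈ range n, 2 ^ (k + 1) * ∑ j ∈ iv (n - (k + 1)) R, ∑ x0 ∈ iv n T, ρ k x0 j *
      nsq (((1 / 2 : ℝ) • (Rs Mx o x1 s n sh k x0 (2 * j) -
        Rs Mx o x1 s n sh k x0 (2 * j + 1))) *ᵥ w) ≤
      6200 * (lam * (2 ^ n * ∑ i ∈ range n, En Mx n T x1 M3 (i + 1) w)) := by
  set E : ℕ → ℝ := fun i => En Mx n T x1 M3 (i + 1) w with hE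
  have hE0 : ∀ i, 0 ≤ E i := fun i => En_nonneg _ _
  -- one cell
  have one : ∀ k < n, ∀ j ∈ iv (n - (k + 1)) R, ∑ x0 ∈ iv n T, ρ k x0 j *
      nsq (((1 / 2 : ℝ) • (Rs Mx o x1 s n sh k x0 (2 * j) -
        Rs Mx o x1 s n sh k x0 (2 * j + 1))) *ᵥ w) ≤
      lam * (8 * ∑ i ∈ range n, (2 ^ (k - (i + 1)) * om sh k i (pt sh k j)) * E i +
        8 * ∑ i ∈ range n, (2 ^ (k - (i + 1)) * om sh (k + 1) i (pt sh k j)) * E i +
        2 * E k) := by
    intro k hk j hj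
    set W : ℤ → ℝ := fun x0 => if x0 ∈ iv n T then ρ k x0 j else 0 with hWd
    have hW0 : ∀ x, 0 ≤ W x := by
      intro x
      by_cases h : x ∈ iv n T
      · simp only [hWd, if_pos h]
        exact hρ0 k hk j hj x h
      · simp only [hWd, if_neg h]
        exact le_rfl
    have hW : ∀ a, ∑ x ∈ iv k a, W x ≤ lam * 2 ^ k := by
      intro a
      by_cases ha : a ∈ iv (n - k) T
      · refine le_trans (le_of_eq (sum_congr rfl fun x hx => ?_)) (hρ k hk j hj a ha)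
        have : x ∈ iv n T := by
          rw [mem_iv] at hx ha ⊢
          rw [← hx, ix_ix, Nat.add_sub_cancel' hk.le] at ha
          exact ha
        simp only [hWd, if_pos this]
      · have e : ∑ x ∈ iv k a, W x = 0 := by
          refine sum_eq_zero fun x hx => ?_
          have : ¬ x ∈ iv n T := by
            intro hx2
            apply ha
            rw [mem_iv] at hx hx2 ⊢
            rw [← hx, ix_ix, Nat.add_sub_cancel' hk.le]
            exact hx2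
          simp only [hWd, if_neg this]
        rw [e]
        positivity
    have lay : ∀ i, i < n → ∀ d : ℤ, 0 ≤ d → d ≤ 2 ^ (k + 1) →
        ∑ x0 ∈ iv n T, W x0 * Nn Mx o x1 (i + 1) x0 (pt sh k j + d) w ≤
          lam * 2 ^ (k - (i + 1)) * E i := by
      intro i hi d hd hd2
      obtain ⟨p1, p2⟩ := pt_root h1 h2 hk hj hd hd2
      exact wt_Nn ho hW0 hW (Nat.succ_le_of_lt hi) p1 p2 w
    have hp1 : (0 : ℤ) ≤ 2 ^ k := by positivity
    have hp2 : (0 : ℤ) ≤ 2 ^ (k + 1) := by positivity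
    have hp3 : (2 : ℤ) ^ k ≤ 2 ^ (k + 1) := pow_le_pow_right₀ (by norm_num) (Nat.le_succ k)
    have f1 : ∑ x0 ∈ iv n T, ρ k x0 j *
        nsq (((1 / 2 : ℝ) • (Rs Mx o x1 s n sh k x0 (2 * j) -
          Rs Mx o x1 s n sh k x0 (2 * j + 1))) *ᵥ w) ≤
        ∑ x0 ∈ iv n T, W x0 * (4 * ∑ i ∈ range n, om sh k i (pt sh k j) *
            (Nn Mx o x1 (i + 1) x0 (pt sh k j) w + Nn Mx o x1 (i + 1) x0 (pt sh k j + 2 ^ k) w) +
          4 * ∑ i ∈ range n, om sh (k + 1) i (pt sh k j) *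
            (Nn Mx o x1 (i + 1) x0 (pt sh k j) w +
              Nn Mx o x1 (i + 1) x0 (pt sh k j + 2 ^ (k + 1)) w) +
          2 * Nn Mx o x1 (k + 1) x0 (pt sh k j) w) := by
      refine sum_le_sum fun x0 hx0 => ?_
      have : W x0 = ρ k x0 j := by simp only [hWd, if_pos hx0]
      rw [this]
      exact mul_le_mul_of_nonneg_left (half_le hs1 sh hk x0 j w) (hρ0 k hk j hj x0 hx0)
    refine f1.trans ?_
    have f2 : ∀ (q : ℕ) (d : ℤ), 0 ≤ d → d ≤ 2 ^ (k + 1) →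
        ∑ x0 ∈ iv n T, W x0 * (4 * ∑ i ∈ range n, om sh q i (pt sh k j) *
            (Nn Mx o x1 (i + 1) x0 (pt sh k j) w + Nn Mx o x1 (i + 1) x0 (pt sh k j + d) w)) ≤
          lam * (8 * ∑ i ∈ range n, (2 ^ (k - (i + 1)) * om sh q i (pt sh k j)) * E i) := by
      intro q d hd hd2
      have g1 : ∑ x0 ∈ iv n T, W x0 * (4 * ∑ i ∈ range n, om sh q i (pt sh k j) *
            (Nn Mx o x1 (i + 1) x0 (pt sh k j) w + Nn Mx o x1 (i + 1) x0 (pt sh k j + d) w)) =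
          4 * ∑ i ∈ range n, om sh q i (pt sh k j) *
            (∑ x0 ∈ iv n T, W x0 * Nn Mx o x1 (i + 1) x0 (pt sh k j + 0) w +
              ∑ x0 ∈ iv n T, W x0 * Nn Mx o x1 (i + 1) x0 (pt sh k j + d) w) := by
        simp only [mul_sum, add_zero]
        rw [sum_comm]
        refine sum_congr rfl fun i _ => ?_
        rw [← sum_add_distrib, mul_sum, mul_sum]
        refine sum_congr rfl fun x _ => ?_
        ring
      rw [g1]
      have g2 : ∀ i ∈ range n, om sh q i (pt sh k j) *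
            (∑ x0 ∈ iv n T, W x0 * Nn Mx o x1 (i + 1) x0 (pt sh k j + 0) w +
              ∑ x0 ∈ iv n T, W x0 * Nn Mx o x1 (i + 1) x0 (pt sh k j + d) w) ≤
          2 * lam * ((2 ^ (k - (i + 1)) * om sh q i (pt sh k j)) * E i) := by
        intro i hi
        rw [mem_range] at hi
        have a1 := lay i hi 0 le_rfl hp2
        have a2 := lay i hi d hd hd2
        have a3 := mul_le_mul_of_nonneg_left (add_le_add a1 a2) (om_nonneg sh q i (pt sh k j))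
        refine a3.trans (le_of_eq ?_)
        ring
      have g3 := mul_le_mul_of_nonneg_left (sum_le_sum g2) (by norm_num : (0 : ℝ) ≤ 4)
      refine g3.trans (le_of_eq ?_)
      rw [← mul_sum]
      ring
    have f3 := f2 k (2 ^ k) hp1 hp3
    have f4 := f2 (k + 1) (2 ^ (k + 1)) hp2 le_rfl
    have f5 := lay k hk 0 le_rfl hp2
    have e0 : k - (k + 1) = 0 := by omega
    rw [e0, pow_zero, mul_one, add_zero] at f5
    simp only [mul_add (W _), sum_add_distrib]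
    have f6 : ∑ x0 ∈ iv n T, W x0 * (2 * Nn Mx o x1 (k + 1) x0 (pt sh k j) w) =
        2 * ∑ x0 ∈ iv n T, W x0 * Nn Mx o x1 (k + 1) x0 (pt sh k j) w := by
      rw [mul_sum]
      exact sum_congr rfl fun x _ => by ring
    rw [f6]
    linarith
  -- the sum over the cells
  have two : ∀ k ∈ range n, 2 ^ (k + 1) * ∑ j ∈ iv (n - (k + 1)) R, ∑ x0 ∈ iv n T, ρ k x0 j *
      nsq (((1 / 2 : ℝ) • (Rs Mx o x1 s n sh k x0 (2 * j) -
        Rs Mx o x1 s n sh k x0 (2 * j + 1))) *ᵥ w) ≤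
      lam * (2 ^ n * (256 * ∑ i ∈ range n, cw k i * E i +
        256 * ∑ i ∈ range n, cw (k + 1) i * E i + 2 * E k)) := by
    intro k hk
    rw [mem_range] at hk
    have a1 := mul_le_mul_of_nonneg_left (sum_le_sum (one k hk)) (by positivity : (0 : ℝ) ≤ 2 ^ (k + 1))
    refine a1.trans ?_
    rw [← mul_sum, sum_add_distrib, sum_add_distrib, ← mul_sum, ← mul_sum, sum_const, card_iv,
      nsmul_eq_mul]
    have b1 : ∀ q, k ≤ q → q ≤ k + 1 → 2 ^ (k + 1) * (8 * ∑ j ∈ iv (n - (k + 1)) R,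
        ∑ i ∈ range n, (2 ^ (k - (i + 1)) * om sh q i (pt sh k j)) * E i) ≤
        2 ^ n * (256 * ∑ i ∈ range n, cw q i * E i) := by
      intro q hkq hq
      rw [sum_comm]
      have c1 : ∀ i ∈ range n, 2 ^ (k + 1) * ∑ j ∈ iv (n - (k + 1)) R,
          (2 ^ (k - (i + 1)) * om sh q i (pt sh k j)) * E i ≤ 2 ^ n * (32 * (cw q i * E i)) := by
        intro i hi
        rw [mem_range] at hi
        have c2 := mul_le_mul_of_nonneg_right (om_sum sh hk hkq hq hi R) (hE0 i)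
        refine le_trans (le_of_eq ?_) (c2.trans (le_of_eq ?_))
        · rw [← sum_mul, ← mul_sum]
          ring
        · ring
      have c3 := sum_le_sum c1
      rw [← mul_sum, ← mul_sum, ← mul_sum] at c3
      have c4 := mul_le_mul_of_nonneg_left c3 (by norm_num : (0 : ℝ) ≤ 8)
      refine le_trans (le_of_eq ?_) (c4.trans (le_of_eq ?_)) <;> ring
    have b2 := b1 k le_rfl (Nat.le_succ k)
    have b3 := b1 (k + 1) (Nat.le_succ k) le_rfl
    have e2 : (2 : ℝ) ^ (k + 1) * (((2 ^ (n - (k + 1)) : ℕ) : ℝ) * (2 * E k)) = 2 ^ n * (2 * E k) := by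
      push_cast
      rw [← mul_assoc, ← pow_add, Nat.add_sub_cancel' hk]
    calc _ = lam * (2 ^ (k + 1) * (8 * ∑ j ∈ iv (n - (k + 1)) R,
            ∑ i ∈ range n, (2 ^ (k - (i + 1)) * om sh k i (pt sh k j)) * E i) +
          2 ^ (k + 1) * (8 * ∑ j ∈ iv (n - (k + 1)) R,
            ∑ i ∈ range n, (2 ^ (k - (i + 1)) * om sh (k + 1) i (pt sh k j)) * E i) +
          2 ^ (k + 1) * (((2 ^ (n - (k + 1)) : ℕ) : ℝ) * (2 * E k))) := by ring
      _ ≤ lam * (2 ^ n * (256 * ∑ i ∈ range n, cw k i * E i) +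
          2 ^ n * (256 * ∑ i ∈ range n, cw (k + 1) i * E i) + 2 ^ n * (2 * E k)) := by
        rw [e2]
        refine mul_le_mul_of_nonneg_left ?_ hlam
        linarith
      _ = _ := by ring
  refine (sum_le_sum two).trans ?_
  rw [← mul_sum, ← mul_sum, sum_add_distrib, sum_add_distrib, ← mul_sum, ← mul_sum, ← mul_sum]
  have c1 : ∀ a, ∑ k ∈ range n, ∑ i ∈ range n, cw (k + a) i * E i ≤ 12 * ∑ i ∈ range n, E i := by
    intro a
    rw [sum_comm, mul_sum]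
    refine sum_le_sum fun i _ => ?_
    rw [← sum_mul]
    exact mul_le_mul_of_nonneg_right (cw_sum n i a) (hE0 i)
  have c2 := c1 0
  have c3 := c1 1
  simp only [add_zero] at c2
  have hS : 0 ≤ ∑ i ∈ range n, E i := sum_nonneg fun i _ => hE0 i
  have h3 : 256 * ∑ k ∈ range n, ∑ i ∈ range n, cw k i * E i +
      256 * ∑ k ∈ range n, ∑ i ∈ range n, cw (k + 1) i * E i + 2 * ∑ k ∈ range n, E k ≤
      6200 * ∑ i ∈ range n, E i := by linarith
  have h4 := mul_le_mul_of_nonneg_left (mul_le_mul_of_nonneg_left h3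
    (by positivity : (0 : ℝ) ≤ 2 ^ n)) hlam
  refine h4.trans (le_of_eq ?_)
  ring

/-! ### Hilbert-Schmidt norms -/

/-- the square of the Hilbert-Schmidt norm -/
def hs2 (M : Matrix ι ι ℝ) : ℝ := (M * Mᵀ).trace

theorem hs2_nonneg (M : Matrix ι ι ℝ) : 0 ≤ hs2 M := by
  unfold hs2 Matrix.trace
  refine sum_nonneg fun i _ => ?_
  simp only [Matrix.diag_apply, Matrix.mul_apply, Matrix.transpose_apply]
  exact sum_nonneg fun _ _ => mul_self_nonneg _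

theorem hs2_eq [DecidableEq ι] (M : Matrix ι ι ℝ) :
    hs2 M = ∑ c, nsq (M *ᵥ Pi.single c (1 : ℝ)) := by
  unfold hs2 Matrix.trace H43.nsq dotProduct
  simp only [Matrix.diag_apply, Matrix.mul_apply, Matrix.transpose_apply, Matrix.mulVec_single_one,
    Matrix.col_apply]
  exact sum_comm

/-- **The half differences against a weight which sees `x₀`**, Hilbert-Schmidt norms. -/
theorem hs2_sum [DecidableEq ι] (hs1 : ∀ k a b, |s k a b| ≤ 1) (ho : o = 1 ∨ o = -1) {sh R : ℤ}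
    (h1 : M3 - 1 ≤ ix n (2 ^ n * R + sh)) (h2 : ix n (2 ^ n * R + 2 ^ n + sh) ≤ M3 + 1)
    {ρ : ℕ → ℤ → ℤ → ℝ} {lam : ℝ} (hlam : 0 ≤ lam)
    (hρ0 : ∀ k < n, ∀ j ∈ iv (n - (k + 1)) R, ∀ x0 ∈ iv n T, 0 ≤ ρ k x0 j)
    (hρ : ∀ k < n, ∀ j ∈ iv (n - (k + 1)) R, ∀ a ∈ iv (n - k) T,
      ∑ x0 ∈ iv k a, ρ k x0 j ≤ lam * 2 ^ k) :
    ∑ k ∈ range n, 2 ^ (k + 1) * ∑ j ∈ iv (n - (k + 1)) R, ∑ x0 ∈ iv n T, ρ k x0 j *
      hs2 ((1 / 2 : ℝ) • (Rs Mx o x1 s n sh k x0 (2 * j) - Rs Mx o x1 s n sh k x0 (2 * j + 1))) ≤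
      6200 * (lam * (2 ^ n * ∑ c, ∑ i ∈ range n, En Mx n T x1 M3 (i + 1) (Pi.single c (1 : ℝ)))) := by
  have h := sum_le_sum fun (c : ι) (_ : c ∈ univ) => mv_sum (Mx := Mx) (o := o) (x1 := x1)
    hs1 ho h1 h2 hlam hρ0 hρ (Pi.single c (1 : ℝ))
  refine le_trans (le_of_eq ?_) (h.trans (le_of_eq ?_))
  · rw [sum_comm (s := (univ : Finset ι))]
    refine sum_congr rfl fun k _ => ?_
    rw [← mul_sum]
    congr 1
    rw [sum_comm (s := (univ : Finset ι))]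
    refine sum_congr rfl fun j _ => ?_
    rw [sum_comm (s := (univ : Finset ι))]
    refine sum_congr rfl fun x _ => ?_
    rw [hs2_eq, mul_sum]
  · rw [← mul_sum, ← mul_sum, ← mul_sum]

/-- **The same with the trace of the top matrix.** -/
theorem hs2_sumQ [DecidableEq ι] (hs1 : ∀ k a b, |s k a b| ≤ 1) (ho : o = 1 ∨ o = -1) {sh R : ℤ}
    (h1 : M3 - 1 ≤ ix n (2 ^ n * R + sh)) (h2 : ix n (2 ^ n * R + 2 ^ n + sh) ≤ M3 + 1)
    {ρ : ℕ → ℤ → ℤ → ℝ} {lam : ℝ} (hlam : 0 ≤ lam)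
    (hρ0 : ∀ k < n, ∀ j ∈ iv (n - (k + 1)) R, ∀ x0 ∈ iv n T, 0 ≤ ρ k x0 j)
    (hρ : ∀ k < n, ∀ j ∈ iv (n - (k + 1)) R, ∀ a ∈ iv (n - k) T,
      ∑ x0 ∈ iv k a, ρ k x0 j ≤ lam * 2 ^ k)
    {l : ℝ} {G K : ℕ → ℤ → Matrix ι ι ℝ} (h : Tr l n G K)
    (hM : ∀ k m a, Mx k m *ᵥ a = H483.mT l K k m a) :
    ∑ k ∈ range n, 2 ^ (k + 1) * ∑ j ∈ iv (n - (k + 1)) R, ∑ x0 ∈ iv n T, ρ k x0 j *
      hs2 ((1 / 2 : ℝ) • (Rs Mx o x1 s n sh k x0 (2 * j) - Rs Mx o x1 s n sh k x0 (2 * j + 1))) ≤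
      6200 * (lam * (4 ^ n * ((2 * l)⁻¹ * ∑ R ∈ wn n T x1 M3, (G n R).trace))) := by
  refine (hs2_sum hs1 ho h1 h2 hlam hρ0 hρ).trans ?_
  have e : ∑ c : ι, ∑ i ∈ range n, En Mx n T x1 M3 (i + 1) (Pi.single c (1 : ℝ)) ≤
      2 ^ n * ((2 * l)⁻¹ * ∑ R ∈ wn n T x1 M3, (G n R).trace) := by
    refine (sum_le_sum fun c _ => En_sumQ (M3 := M3) (T := T) (x1 := x1) h hM
      (Pi.single c (1 : ℝ))).trans (le_of_eq ?_)
    rw [← mul_sum, ← mul_sum]
    congr 2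
    rw [sum_comm]
    refine sum_congr rfl fun R _ => ?_
    unfold Matrix.trace
    refine sum_congr rfl fun c _ => ?_
    simp [Matrix.diag_apply]
  have h3 := mul_le_mul_of_nonneg_left (mul_le_mul_of_nonneg_left (mul_le_mul_of_nonneg_left e
    (by positivity : (0 : ℝ) ≤ 2 ^ n)) hlam) (by norm_num : (0 : ℝ) ≤ 6200)
  refine h3.trans (le_of_eq ?_)
  have e4 : (4 : ℝ) ^ n = 2 ^ n * 2 ^ n := by
    rw [← mul_pow]
    norm_num
  rw [e4]
  ring

end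

end Vale.Agent.P141.H893
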