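import Vale.Agent.P141.H893.ZBnum
import Vale.Agent.P141.H58.EW
import Vale.Agent.P141.H677.GenM
import Vale.Agent.P141.H747.StageM
import Vale.Agent.P141.H150.WISum
import Vale.Agent.P141.H609.RPW

/-!
# P141, line (A): the crude number of the pair `(b, C)` of the flow part

The sums `wf`, `wh` of `H433.LoW` of the averaged slot on one shifted grid, summed over `x₀`.

* `RgS_Rs` : the averaged slot in the letters of `H841.Lay`;
* `vk_Rs` : its cost; `cr_x` : the number over one point `x₁`;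
* `rr_rows2` : the averages of the weight, the plane takes two values on a cell of `x₀`;
* `crH` : the sum.
-/

namespace Vale.Agent.P141.H893.Cr

open Finset Matrix
open Vale.Agent.P075 (Ix)
open Vale.Agent.P141.PL (Pt iv ix hs mem_iv ix_ix card_iv)
open Vale.Agent.P141.PL.H560 (cbs)
open Vale.Agent.P141.H677 (MT KT GT sN mem_sN)
open Vale.Agent.P141.H677.Sk (Slt SlotN)
open Vale.Agent.P141.H747 (RgS RgS_avv RgS_mart)
open Vale.Agent.P141.H841 (Lm Rm Rs)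
open Vale.Agent.P141.H58 (MxR QR hXR)
open Vale.Agent.P141.H876 (En)
open Vale.Agent.P141.H43 (avv nsq)
open Vale.Agent.P141.H103 (GW)
open Vale.Agent.P141.H822 (vk)
open Vale.Agent.P141.H433 (rt wf wh vd vd_nonneg rt_nonneg rt_mean)
open Vale.Agent.P141.H150.WI (rr rr_nonneg wfh_le)
open Vale.Agent.P141.H609.RPW (um vd_um)
open Vale.Agent.P141.H958 (lbs)

noncomputable section

open scoped Classical

set_option linter.unusedSectionVars false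

variable {ι : Type} [Fintype ι] [DecidableEq ι]

/-! ### The slot -/

section slot

variable {Al : ℕ → Pt → Prop} {o : ℤ} {K : ℕ} {M : Pt} {l : ℝ} {u : ℤ → ℤ → ι → ℝ}

theorem Lm_cut {x1 : ℤ} {s : ℕ → ℤ → ℤ → ℝ}
    (hs : ∀ k a b, ((b, o - 2 - a - ix k x1 - b, ix k x1) : Pt) ∉ sN Al o K M (2 ^ k * a) k →
      s k a b = 0) (i : ℕ) (x0 p : ℤ) :
    Lm (MT l (KT l u x1)) o x1 s i x0 p = Lm (MxR l K M u x1) o x1 s i x0 p := by
  unfold H841.Lm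
  by_cases h : s i (ix i x0) (ix i p) = 0
  · rw [h, zero_mul, zero_smul, zero_smul]
  · have h1 : ((ix i p, o - 2 - ix i x0 - ix i x1 - ix i p, ix i x1) : Pt) ∈
        sN Al o K M (2 ^ i * ix i x0) i := by
      by_contra hn
      exact h (hs _ _ _ hn)
    have h2 := (mem_sN.1 h1).1
    unfold PL.H560.cbs at h2
    rw [mem_product, mem_product, mem_iv, mem_iv, mem_iv] at h2
    have h3 : ix (K - i) (o - 2 - ix i x0 - ix i x1 - ix i p) = M.2.1 := h2.2.1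
    have e : H922.ck o x1 p i - ix i x0 = o - 2 - ix i x0 - ix i x1 - ix i p := by
      unfold H922.ck
      ring
    unfold H58.MxR
    rw [e, if_pos h3]

theorem Rm_cut {x1 : ℤ} {s : ℕ → ℤ → ℤ → ℝ}
    (hs : ∀ k a b, ((b, o - 2 - a - ix k x1 - b, ix k x1) : Pt) ∉ sN Al o K M (2 ^ k * a) k →
      s k a b = 0) (n j : ℕ) (x0 p : ℤ) :
    Rm (MT l (KT l u x1)) o x1 s n j x0 p = Rm (MxR l K M u x1) o x1 s n j x0 p := by
  unfold H841.Rm
  exact sum_congr rfl fun i _ => Lm_cut hs (i + 1) x0 p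

/-- **The averaged slot in the letters of the layers.** -/
theorem RgS_Rs {R : Slt ι} {s : ℤ → ℕ → ℤ → ℤ → ℝ}
    (hs : ∀ x1 k a b, ((b, o - 2 - a - ix k x1 - b, ix k x1) : Pt) ∉
      sN Al o K M (2 ^ k * a) k → s x1 k a b = 0)
    (hR : ∀ x0 j z x1, R x0 j z x1 = Rm (MT l (KT l u x1)) o x1 (s x1) K j x0 z)
    (h h1 x0 : ℤ) (k : ℕ) (n x : ℤ) :
    RgS R h h1 x0 k n x = Rs (MxR l K M u (x + h1)) o (x + h1) (s (x + h1)) K h k x0 n := by
  rw [RgS_avv]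
  unfold H841.Rs H43.avv
  congr 1
  refine sum_congr rfl fun w _ => ?_
  show R x0 0 (w + h) (x + h1) = _
  rw [hR, Rm_cut (hs (x + h1))]

end slot

theorem hs2_smul (c : ℝ) (A : Matrix ι ι ℝ) : hs2 (c • A) = c ^ 2 * hs2 A := by
  unfold hs2
  rw [transpose_smul, smul_mul_smul_comm, trace_smul, smul_eq_mul]
  ring

/-- the cost of the averaged slot -/
theorem vk_RgS (R : Slt ι) (κ : ℝ) (h h1 x0 : ℤ) (k : ℕ) (x j : ℤ) :
    vk (fun k x n => κ⁻¹ • RgS R h h1 x0 k n x) k x j =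
      (κ ^ 2)⁻¹ * hs2 ((1 / 2 : ℝ) • (RgS R h h1 x0 k (2 * j) x -
        RgS R h h1 x0 k (2 * j + 1) x)) := by
  have e1 : (1 / 2 : ℝ) • (κ⁻¹ • RgS R h h1 x0 k (2 * j) x -
      κ⁻¹ • RgS R h h1 x0 k (2 * j + 1) x) = κ⁻¹ • ((1 / 2 : ℝ) •
        (RgS R h h1 x0 k (2 * j) x - RgS R h h1 x0 k (2 * j + 1) x)) := by
    module
  have e2 : κ⁻¹ • RgS R h h1 x0 (k + 1) j x - (1 / 2 : ℝ) • (κ⁻¹ • RgS R h h1 x0 k (2 * j) x +
      κ⁻¹ • RgS R h h1 x0 k (2 * j + 1) x) = 0 := by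
    rw [RgS_mart]
    module
  unfold H822.vk
  rw [e1, e2, zero_mul, trace_zero, Real.sqrt_zero, add_zero]
  have e3 := hs2_smul κ⁻¹ ((1 / 2 : ℝ) •
        (RgS R h h1 x0 k (2 * j) x - RgS R h h1 x0 k (2 * j + 1) x))
  unfold hs2 at e3 ⊢
  rw [e3, inv_pow]

/-- **The number over one point `x₁`.** -/
theorem cr_x {Al : ℕ → Pt → Prop} {o : ℤ} (ho : o = 1 ∨ o = -1) {K : ℕ} {M : Pt} {l : ℝ}
    (hl : 0 < l) {u : ℤ → ℤ → ι → ℝ} {R : Slt ι} {cap E : ℝ} (hR : SlotN Al o K M l u R cap E)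
    {h Tz : ℤ} (g1 : M.2.2 - 1 ≤ ix K (2 ^ K * Tz + h))
    (g2 : ix K (2 ^ K * Tz + 2 ^ K + h) ≤ M.2.2 + 1) (κ : ℝ) (h1 x t : ℤ)
    {ρ : ℕ → ℤ → ℤ → ℝ} {lam : ℝ} (hlam : 0 ≤ lam)
    (hρ0 : ∀ k < K, ∀ j ∈ iv (K - (k + 1)) Tz, ∀ x0 ∈ iv K t, 0 ≤ ρ k x0 j)
    (hρ : ∀ k < K, ∀ j ∈ iv (K - (k + 1)) Tz, ∀ a ∈ iv (K - k) t,
      ∑ x0 ∈ iv k a, ρ k x0 j ≤ lam * 2 ^ k) :
    ∑ k ∈ range K, 2 ^ (k + 1) * ∑ j ∈ iv (K - (k + 1)) Tz, ∑ x0 ∈ iv K t, ρ k x0 j *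
      vk (fun k x n => κ⁻¹ • RgS R h h1 x0 k n x) k x j ≤
      (κ ^ 2)⁻¹ * (6200 * (lam * (4 ^ K * ((2 * l)⁻¹ * (GT u (x + h1) K M.2.1).trace)))) := by
  obtain ⟨s, hs1, hs0, hRm⟩ := hR.sgn
  have a1 := hs2_sum (Mx := MxR l K M u (x + h1)) (o := o) (x1 := x + h1) (T := t) (M3 := M.2.2)
    (s := s (x + h1)) (n := K) (hs1 (x + h1)) ho g1 g2 hlam hρ0 hρ
  have a2 : ∑ c : ι, ∑ i ∈ range K, En (MxR l K M u (x + h1)) K t (x + h1) M.2.2 (i + 1)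
      (Pi.single c (1 : ℝ)) ≤ 2 ^ K * ((2 * l)⁻¹ * (GT u (x + h1) K M.2.1).trace) := by
    refine (sum_le_sum fun c _ => hXR hl K M u (x + h1) t M.2.2 (Pi.single c (1 : ℝ))).trans
      (le_of_eq ?_)
    unfold H58.QR
    rw [← mul_sum, ← mul_sum]
    congr 2
    unfold Matrix.trace
    refine sum_congr rfl fun c _ => ?_
    simp [Matrix.diag_apply]
  have a3 := a1.trans (mul_le_mul_of_nonneg_left (mul_le_mul_of_nonneg_left
    (mul_le_mul_of_nonneg_left a2 (by positivity : (0 : ℝ) ≤ 2 ^ K)) hlam)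
    (by norm_num : (0 : ℝ) ≤ 6200))
  have a4 := mul_le_mul_of_nonneg_left a3 (by positivity : (0 : ℝ) ≤ (κ ^ 2)⁻¹)
  refine le_trans (le_of_eq ?_) (a4.trans (le_of_eq ?_))
  · rw [mul_sum]
    refine sum_congr rfl fun k _ => ?_
    rw [mul_left_comm]
    congr 1
    rw [mul_sum]
    refine sum_congr rfl fun j _ => ?_
    rw [mul_sum]
    refine sum_congr rfl fun x0 _ => ?_
    rw [vk_RgS, RgS_Rs hs0 hRm, RgS_Rs hs0 hRm]
    ring
  · have e4 : (4 : ℝ) ^ K = 2 ^ K * 2 ^ K := by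
      rw [← mul_pow]
      norm_num
    rw [e4]
    ring

/-! ### The weight -/

section rows

variable {L N : ℕ} {R S T : ℤ}

/-- **The averages of the weight**, the plane takes two values on a cell of `x₀`. -/
theorem rr_rows2 {c : ℤ → ℕ → ℤ} {F H : ℤ → ℕ → ℤ → ℤ → ℝ} {lam : ℝ} (hl : 0 ≤ lam) {k : ℕ}
    {q x v : ℤ} (hcx : ∀ i ∈ iv (k + 1) q, c i (k + 1) = v ∨ c i (k + 1) = v + 1)
    (hF : ∀ n ∈ iv (N - (k + 1)) R, ∑ x0 ∈ iv (k + 1) q, rt L (F x0 (L + (k + 1))) (k + 1) n x ≤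
      lam * 2 ^ (k + 1))
    (hH : ∀ n ∈ iv (N - (k + 1)) T, ∑ x0 ∈ iv (k + 1) q, rt L (H x0 (L + (k + 1))) (k + 1) n x ≤
      lam * 2 ^ (k + 1)) {j : ℤ} (hj : j ∈ iv (N - (k + 1)) T) :
    ∑ x0 ∈ iv (k + 1) q, rr L N R (c x0) (F x0) (H x0) k x j ≤ 11 * lam * 2 ^ (k + 1) := by
  have hX : 0 ≤ lam * 2 ^ (k + 1) := by positivity
  unfold H150.WI.rr
  rw [sum_add_distrib, sum_add_distrib, sum_comm (t := range (N - (k + 1) + 1))]
  have hf : ∀ w : ℤ, ∑ x0 ∈ iv (k + 1) q, (if w - ix (k + 1) x - j ∈ iv (N - (k + 1)) R then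
      rt L (F x0 (L + (k + 1))) (k + 1) (w - ix (k + 1) x - j) x else 0) ≤
      lam * 2 ^ (k + 1) := by
    intro w
    by_cases h : w - ix (k + 1) x - j ∈ iv (N - (k + 1)) R
    · refine (le_of_eq (sum_congr rfl fun x0 _ => ?_)).trans (hF _ h)
      rw [if_pos h]
    · refine (le_of_eq (sum_eq_zero fun x0 _ => ?_)).trans hX
      rw [if_neg h]
  have hp : ∀ (w x0 : ℤ), 0 ≤ (if w - ix (k + 1) x - j ∈ iv (N - (k + 1)) R then
      rt L (F x0 (L + (k + 1))) (k + 1) (w - ix (k + 1) x - j) x else 0) := by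
    intro w x0
    split_ifs
    · exact rt_nonneg ..
    · exact le_rfl
  have h1 : ∑ x0 ∈ iv (k + 1) q, (if c x0 (k + 1) - ix (k + 1) x - j ∈ iv (N - (k + 1)) R then
      rt L (F x0 (L + (k + 1))) (k + 1) (c x0 (k + 1) - ix (k + 1) x - j) x else 0) ≤
      2 * (lam * 2 ^ (k + 1)) := by
    have h2 : ∀ x0 ∈ iv (k + 1) q, (if c x0 (k + 1) - ix (k + 1) x - j ∈ iv (N - (k + 1)) R then
        rt L (F x0 (L + (k + 1))) (k + 1) (c x0 (k + 1) - ix (k + 1) x - j) x else 0) ≤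
        (if v - ix (k + 1) x - j ∈ iv (N - (k + 1)) R then
          rt L (F x0 (L + (k + 1))) (k + 1) (v - ix (k + 1) x - j) x else 0) +
        (if v + 1 - ix (k + 1) x - j ∈ iv (N - (k + 1)) R then
          rt L (F x0 (L + (k + 1))) (k + 1) (v + 1 - ix (k + 1) x - j) x else 0) := by
      intro x0 hx0
      rcases hcx x0 hx0 with e | e
      · rw [e]
        exact le_add_of_nonneg_right (hp _ _)
      · rw [e]
        exact le_add_of_nonneg_left (hp _ _)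
    refine (sum_le_sum h2).trans ?_
    rw [sum_add_distrib]
    have := hf v
    have := hf (v + 1)
    linarith
  have h3 : ∀ r ∈ range (N - (k + 1) + 1), ∑ x0 ∈ iv (k + 1) q, (3 / 4 : ℝ) ^ r *
      (rt L (H x0 (L + (k + 1))) (k + 1) j x + rt L (H x0 (L + (k + 1))) (k + 1 + r) (ix r j) x) ≤
      (3 / 4 : ℝ) ^ r * (2 * (lam * 2 ^ (k + 1))) := by
    intro r hr
    have hr' : r ≤ N - (k + 1) := by have := mem_range.1 hr; omega
    rw [← mul_sum, sum_add_distrib]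
    refine mul_le_mul_of_nonneg_left ?_ (by positivity)
    have h4 : ∑ x0 ∈ iv (k + 1) q, rt L (H x0 (L + (k + 1))) (k + 1 + r) (ix r j) x ≤
        lam * 2 ^ (k + 1) := by
      have h5 : ∀ x0, rt L (H x0 (L + (k + 1))) (k + 1 + r) (ix r j) x =
          ((2 : ℝ) ^ r)⁻¹ * ∑ i ∈ iv r (ix r j), rt L (H x0 (L + (k + 1))) (k + 1) i x :=
        fun x0 => (rt_mean ..).symm
      rw [sum_congr rfl fun x0 _ => h5 x0, ← mul_sum, sum_comm]
      have h6 : ∀ i ∈ iv r (ix r j), ∑ x0 ∈ iv (k + 1) q, rt L (H x0 (L + (k + 1))) (k + 1) i x ≤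
          lam * 2 ^ (k + 1) := by
        intro i hi
        refine hH i ?_
        have h7 : ix (N - (k + 1)) i = ix (N - (k + 1)) j := by
          have e : N - (k + 1) = r + (N - (k + 1) - r) := by omega
          rw [e, ← PL.ix_ix, ← PL.ix_ix, mem_iv.1 hi]
        rw [mem_iv] at hj ⊢
        rw [h7, hj]
      refine (mul_le_mul_of_nonneg_left (sum_le_sum h6) (by positivity)).trans (le_of_eq ?_)
      rw [sum_const, PL.card_iv, nsmul_eq_mul]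
      push_cast
      rw [← mul_assoc, inv_mul_cancel₀ (by positivity), one_mul]
    have h8 := hH j hj
    linarith
  have h9 : ∑ r ∈ range (N - (k + 1) + 1), (3 / 4 : ℝ) ^ r ≤ 4 := by
    rw [geom_sum_eq (by norm_num)]
    have h : (0 : ℝ) ≤ (3 / 4 : ℝ) ^ (N - (k + 1) + 1) := by positivity
    rw [div_le_iff_of_neg (by norm_num)]
    linarith
  have h10 := sum_le_sum h3
  rw [← sum_mul] at h10
  have h11 : (∑ r ∈ range (N - (k + 1) + 1), (3 / 4 : ℝ) ^ r) * (2 * (lam * 2 ^ (k + 1))) ≤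
      4 * (2 * (lam * 2 ^ (k + 1))) := mul_le_mul_of_nonneg_right h9 (by linarith)
  have h12 := hH j hj
  linarith

/-- the halves of a cell -/
theorem sum_half (k : ℕ) (q : ℤ) (f : ℤ → ℝ) :
    ∑ x ∈ iv (k + 1) q, f x = ∑ x ∈ iv k (2 * q), f x + ∑ x ∈ iv k (2 * q + 1), f x := by
  have e : iv (k + 1) q = iv k (2 * q) ∪ iv k (2 * q + 1) := by
    ext x
    unfold PL.iv
    simp only [mem_union, mem_Ico]
    have h : (2 : ℤ) ^ (k + 1) = 2 * 2 ^ k := by ring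
    have hp : (0 : ℤ) < 2 ^ k := by positivity
    rw [h]
    constructor
    · rintro ⟨h1, h2⟩
      rcases lt_or_ge x (2 ^ k * (2 * q + 1)) with h3 | h3
      · exact Or.inl ⟨by linarith, by linarith⟩
      · exact Or.inr ⟨h3, by linarith⟩
    · rintro (⟨h1, h2⟩ | ⟨h1, h2⟩)
      · exact ⟨by linarith, by linarith⟩
      · exact ⟨by linarith, by linarith⟩
  rw [e, sum_union]
  rw [Finset.disjoint_left]
  intro x hx hy
  rw [mem_iv] at hx hy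
  omega

end rows

/-! ### The sum -/

/-- the planes of a shifted grid -/
theorem ys_two (k : ℕ) (q S j : ℤ) : ∃ v : ℤ, ∀ i ∈ iv (k + 1) q,
    ix (k + 1) (-i + S) - j = v ∨ ix (k + 1) (-i + S) - j = v + 1 := by
  refine ⟨ix (k + 1) (-(2 ^ (k + 1) * q) - 2 ^ (k + 1) + S) - j, fun i hi => ?_⟩
  unfold PL.iv at hi
  rw [mem_Ico] at hi
  have hp : (0 : ℤ) < 2 ^ (k + 1) := by positivity
  have e : ix (k + 1) (-(2 ^ (k + 1) * q) + S) =
      ix (k + 1) (-(2 ^ (k + 1) * q) - 2 ^ (k + 1) + S) + 1 := by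
    have := ix_add (k + 1) (-(2 ^ (k + 1) * q) - 2 ^ (k + 1) + S) 1
    rw [← this]
    congr 1
    ring
  have a1 : ix (k + 1) (-(2 ^ (k + 1) * q) - 2 ^ (k + 1) + S) ≤ ix (k + 1) (-i + S) :=
    ix_mono (by linarith [hi.2])
  have a2 : ix (k + 1) (-i + S) ≤ ix (k + 1) (-(2 ^ (k + 1) * q) + S) :=
    ix_mono (by linarith [hi.1])
  rw [e] at a2
  omega

/-- **The crude number of the pair `(b, C)`.** -/
theorem crH {L : ℕ} {e : ι ⊕ ι → ℤ} (he : Function.Injective e) (hm : ∀ i, e i ∈ lbs L)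
    {ε κ : ℝ} (hε : 0 < ε) (hκ : 0 ≤ κ) {Al : ℕ → Pt → Prop} {o : ℤ} (ho : o = 1 ∨ o = -1)
    {K : ℕ} {M : Pt} {l : ℝ} (hl : 0 < l) {u : ℤ → ℤ → ι → ℝ} {R : Slt ι} {cap E : ℝ}
    (hR : SlotN Al o K M l u R cap E) {h h1 t : ℤ} {Q : Pt}
    (g1 : M.2.2 - 1 ≤ ix K (2 ^ K * Q.1 + h))
    (g2 : ix K (2 ^ K * Q.1 + 2 ^ K + h) ≤ M.2.2 + 1) {c : ℤ → ℕ → ℤ}
    (hcx : ∀ k < K, ∀ q, ∃ v : ℤ, ∀ i ∈ iv (k + 1) q, c i (k + 1) = v ∨ c i (k + 1) = v + 1)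
    {F H : ℤ → ℕ → ℤ → ℤ → ℝ} {lam : ℤ → ℝ} (hlam : ∀ x, 0 ≤ lam x)
    (hF : ∀ k < K, ∀ a ∈ iv (K - k) t, ∀ n ∈ iv (K - (k + 1)) Q.2.1, ∀ x ∈ iv K Q.2.2,
      ∑ x0 ∈ iv k a, rt L (F x0 (L + (k + 1))) (k + 1) n x ≤ lam x * 2 ^ k)
    (hH : ∀ k < K, ∀ a ∈ iv (K - k) t, ∀ n ∈ iv (K - (k + 1)) Q.1, ∀ x ∈ iv K Q.2.2,
      ∑ x0 ∈ iv k a, rt L (H x0 (L + (k + 1))) (k + 1) n x ≤ lam x * 2 ^ k) :
    ∑ x0 ∈ iv K t, (∑ k ∈ range K, GW K Q.2.1 Q.2.2 Q.1 (k + 1) (c x0 (k + 1))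
        (wf (um L e ε κ fun k x n => κ⁻¹ • RgS R h h1 x0 k n x)
          (F x0 (L + (k + 1))) (H x0 (L + (k + 1))) k) +
      ∑ k ∈ range K, wh (um L e ε κ fun k x n => κ⁻¹ • RgS R h h1 x0 k n x)
          (H x0 (L + (k + 1))) K Q.2.2 Q.1 k) ≤
    (κ ^ 2)⁻¹ * (136400 * (4 ^ K * ((2 * l)⁻¹ * ∑ x ∈ iv K Q.2.2,
      lam x * (GT u (x + h1) K M.2.1).trace))) := by
  -- rows over the cells of scale `k + 1`
  have hcell : ∀ k < K, ∀ q ∈ iv (K - (k + 1)) t, 2 * q ∈ iv (K - k) t ∧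
      2 * q + 1 ∈ iv (K - k) t := by
    intro k hk q hq
    rw [mem_iv] at hq
    have e : K - k = 1 + (K - (k + 1)) := by omega
    have e1 : ix 1 (2 * q) = q := by
      unfold PL.ix
      omega
    have e2 : ix 1 (2 * q + 1) = q := by
      unfold PL.ix
      omega
    rw [mem_iv, mem_iv, e, ← ix_ix, ← ix_ix, e1, e2]
    exact ⟨hq, hq⟩
  have up : ∀ {f : ℕ → ℤ → ℝ} {A : ℝ} {k : ℕ}, k < K → (∀ a ∈ iv (K - k) t,
      ∑ x0 ∈ iv k a, f k x0 ≤ A * 2 ^ k) → ∀ q ∈ iv (K - (k + 1)) t,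
      ∑ x0 ∈ iv (k + 1) q, f k x0 ≤ A * 2 ^ (k + 1) := by
    intro f A k hk hf q hq
    obtain ⟨b1, b2⟩ := hcell k hk q hq
    have c1 := hf _ b1
    have c2 := hf _ b2
    rw [sum_half, pow_succ]
    linarith
  have rows : ∀ k < K, ∀ q ∈ iv (K - (k + 1)) t, ∀ x ∈ iv K Q.2.2,
      ∀ j ∈ iv (K - (k + 1)) Q.1,
      ∑ x0 ∈ iv (k + 1) q, rr L K Q.2.1 (c x0) (F x0) (H x0) k x j ≤
        11 * lam x * 2 ^ (k + 1) := by
    intro k hk q hq x hx j hj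
    obtain ⟨v, hv⟩ := hcx k hk q
    refine rr_rows2 (v := v) (hlam x) hv ?_ ?_ hj
    · intro n hn
      exact up (f := fun k x0 => rt L (F x0 (L + (k + 1))) (k + 1) n x) hk
        (fun a ha => hF k hk a ha n hn x hx) q hq
    · intro n hn
      exact up (f := fun k x0 => rt L (H x0 (L + (k + 1))) (k + 1) n x) hk
        (fun a ha => hH k hk a ha n hn x hx) q hq
  -- one point
  have one : ∀ x ∈ iv K Q.2.2, ∑ k ∈ range K, 2 ^ (k + 1) * ∑ j ∈ iv (K - (k + 1)) Q.1,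
      ∑ x0 ∈ iv K t, rr L K Q.2.1 (c x0) (F x0) (H x0) k x j *
        vk (fun k x n => κ⁻¹ • RgS R h h1 x0 k n x) k x j ≤
      (κ ^ 2)⁻¹ * (6200 * ((22 * lam x) * (4 ^ K * ((2 * l)⁻¹ *
        (GT u (x + h1) K M.2.1).trace)))) := by
    intro x hx
    have hl2 : 0 ≤ 22 * lam x := by
      have := hlam x
      positivity
    refine cr_x ho hl hR g1 g2 κ h1 x t
      (ρ := fun k x0 j => rr L K Q.2.1 (c x0) (F x0) (H x0) k x j) hl2
      (fun k _ j _ x0 _ => rr_nonneg ..) fun k hk j hj a ha => ?_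
    have ha2 : ix 1 a ∈ iv (K - (k + 1)) t := by
      rw [mem_iv] at ha ⊢
      rw [ix_ix, ← ha]
      congr 1
      omega
    have b1 := rows k hk _ ha2 x hx j hj
    rw [sum_half, pow_succ] at b1
    have b2 : ∀ b, 0 ≤ ∑ x0 ∈ iv k b, rr L K Q.2.1 (c x0) (F x0) (H x0) k x j := fun b =>
      sum_nonneg fun x0 _ => rr_nonneg ..
    have b3 : a = 2 * ix 1 a ∨ a = 2 * ix 1 a + 1 := by
      unfold PL.ix
      omega
    have b4 := b2 (2 * ix 1 a)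
    have b5 := b2 (2 * ix 1 a + 1)
    show ∑ x0 ∈ iv k a, rr L K Q.2.1 (c x0) (F x0) (H x0) k x j ≤ _
    rcases b3 with b3 | b3
    · rw [b3]
      linarith
    · rw [b3]
      linarith
  -- the sum over the points
  have two : ∀ x0 ∈ iv K t, (∑ k ∈ range K, GW K Q.2.1 Q.2.2 Q.1 (k + 1) (c x0 (k + 1))
        (wf (um L e ε κ fun k x n => κ⁻¹ • RgS R h h1 x0 k n x)
          (F x0 (L + (k + 1))) (H x0 (L + (k + 1))) k) +
      ∑ k ∈ range K, wh (um L e ε κ fun k x n => κ⁻¹ • RgS R h h1 x0 k n x)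
          (H x0 (L + (k + 1))) K Q.2.2 Q.1 k) ≤
      ∑ x ∈ iv K Q.2.2, ∑ k ∈ range K, 2 ^ (k + 1) * ∑ j ∈ iv (K - (k + 1)) Q.1,
        rr L K Q.2.1 (c x0) (F x0) (H x0) k x j *
          vk (fun k x n => κ⁻¹ • RgS R h h1 x0 k n x) k x j := by
    intro x0 _
    refine (wfh_le (c x0) _ (F x0) (H x0)).trans (sum_le_sum fun x _ => sum_le_sum fun k _ =>
      mul_le_mul_of_nonneg_left (sum_le_sum fun j _ => ?_) (by positivity))
    exact mul_le_mul_of_nonneg_left (vd_um he hm hε hκ _ k x j) (rr_nonneg ..)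
  refine (sum_le_sum two).trans ?_
  rw [sum_comm]
  have three : ∀ x ∈ iv K Q.2.2, ∑ x0 ∈ iv K t, ∑ k ∈ range K, 2 ^ (k + 1) *
      ∑ j ∈ iv (K - (k + 1)) Q.1, rr L K Q.2.1 (c x0) (F x0) (H x0) k x j *
          vk (fun k x n => κ⁻¹ • RgS R h h1 x0 k n x) k x j ≤
      (κ ^ 2)⁻¹ * (136400 * (4 ^ K * ((2 * l)⁻¹ * (lam x * (GT u (x + h1) K M.2.1).trace)))) := by
    intro x hx
    refine le_trans (le_of_eq ?_) ((one x hx).trans (le_of_eq ?_))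
    · rw [sum_comm]
      refine sum_congr rfl fun k _ => ?_
      rw [← mul_sum, sum_comm]
    · ring
  refine (sum_le_sum three).trans (le_of_eq ?_)
  rw [← mul_sum, ← mul_sum, ← mul_sum, ← mul_sum]

end

end Vale.Agent.P141.H893.Cr
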