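import Vale.Agent.P141.H893.CrH
import Vale.Agent.P141.H840.CrB
import Vale.Agent.P141.H973.RowPM2

/-!
# P141, line (A): the crude number of the pair `(b, C)` of the flow part, class data

`WS_le` : the sum `H840.WS` of a bundle.
-/

namespace Vale.Agent.P141.H893.Cr

open Finset Matrix
open Vale.Agent.P141.PL (Pt iv ix hs mem_iv ix_ix card_iv cx cb mem_cb)
open Vale.Agent.P141.PL.H315 (Tri)
open Vale.Agent.P141.H677 (MT KT GT rv)
open Vale.Agent.P141.H677.Sk (FamA FamV Slt SlotN FDs lam1)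
open Vale.Agent.P141.H401 (FibU)
open Vale.Agent.P141.H305 (Cls)
open Vale.Agent.P141.H747 (RgS sft shB shC)
open Vale.Agent.P141.H795 (ys E8)
open Vale.Agent.P141.H609.RPW (um eb ec)
open Vale.Agent.P141.H958 (lbs)
open Vale.Agent.P141.H840 (WS tr_cls)
open Vale.Agent.P141.H277.Phi (Cz)

noncomputable section

open scoped Classical

set_option linter.unusedSectionVars false

variable {ι : Type} [Fintype ι] [DecidableEq ι]

theorem GT_tr_nonneg (u : ℤ → ℤ → ι → ℝ) (x : ℤ) (k : ℕ) (m : ℤ) : 0 ≤ (GT u x k m).trace := by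
  rw [H677.GT_trace]
  exact mul_nonneg (by positivity) (sum_nonneg fun y _ => by
    unfold dotProduct
    exact sum_nonneg fun i _ => mul_self_nonneg _)

/-- the points of the shifted root over the root -/
theorem sum_root {K : ℕ} {R a Q : ℤ} {f : ℤ → ℝ} (hf : ∀ x, 0 ≤ f x) :
    ∑ x ∈ iv K Q, (if ix K (x + a) = R then f (x + a) else 0) ≤ ∑ x ∈ iv K R, f x := by
  rw [← sum_filter]
  have e : ∑ x ∈ (iv K Q).filter (fun x => ix K (x + a) = R), f (x + a) =
      ∑ y ∈ ((iv K Q).filter (fun x => ix K (x + a) = R)).image (fun x => x + a), f y :=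
    (sum_image fun x _ y _ h => by simpa using h).symm
  rw [e]
  refine sum_le_sum_of_subset_of_nonneg (fun y hy => ?_) fun _ _ _ => hf _
  obtain ⟨x, hx, rfl⟩ := mem_image.1 hy
  exact mem_iv.2 (mem_filter.1 hx).2

variable {p : H401.Num} {n : ℕ} {ez : ℝ}
  {F1 F2 F3 : ℕ → Pt → ℝ} {K : ℕ} {x : Pt} {s r P : ℝ} {U : Tri} {g : ℤ → ℤ → ℝ}
  {u v : ℤ → ℤ → ι → ℝ} {A : FamA} {b C : FamV ι} {Q1 Q2 Q3 : ℕ → Pt → Prop}
  {v' : ℤ → ℤ → ι → ℝ}

/-- **The crude number of the pair `(b, C~)` of a bundle**, one slot, one shift, one plane. -/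
theorem WS_le (h : FDs p n ez F1 F2 F3 K x s r U g u v A b C Q1 Q2 Q3 v')
    (hcl : Cls K x s r P U g u v) (hez : 0 < ez) (hK : K ≤ n) (hpe : 1 ≤ p.e)
    (hl1 : 0 ≤ lam1 p s r) (hf : FibU p K x s r U u)
    {L : ℕ} {e : ι ⊕ ι → ℤ} (he : Function.Injective e) (hm : ∀ i, e i ∈ lbs L)
    {w : Pt} (hw : w ∈ cb K 0) {j : ℤ} {q : Pt} (hq : q ∈ E8) {t : ℤ} {ε : ℝ}
    {Al : ℕ → Pt → Prop} {o : ℤ} (ho : o = 1 ∨ o = -1) {l κ E : ℝ} (hl : 0 < l) {R : Slt ι}
    (hR : SlotN Al o K (cx K x) l u R κ E) (hκ : 0 ≤ κ) (hε : 0 < ε) :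
    WS K (cx K x) R b (Cz ez C) L e ε κ w t j q ≤
      (κ ^ 2)⁻¹ * (409200 * (p.e * lam1 p s r) * ((2 * l)⁻¹ * (s * 8 ^ K))) := by
  have hp0 : 0 ≤ p.e := by linarith
  set N0 : ℝ := 3 * (p.e * lam1 p s r) with hN0
  have hN : 0 ≤ N0 := by positivity
  have hw3 : 0 ≤ w.2.2 ∧ w.2.2 < 2 ^ K := by
    have h1 : ix K w.2.2 = 0 := by
      have := mem_cb.1 hw
      unfold PL.cx at this
      exact congrArg (fun m : Pt => m.2.2) this
    have h2 := mem_iv.2 h1
    unfold PL.iv at h2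
    rw [mem_Ico] at h2
    constructor
    · linarith [h2.1]
    · linarith [h2.2]
  have hix : ix K w.2.2 = 0 := by
    have := mem_cb.1 hw
    unfold PL.cx at this
    exact congrArg (fun m : Pt => m.2.2) this
  have hq3 : 0 ≤ q.2.2 ∧ q.2.2 ≤ 1 := by
    unfold H795.E8 at hq
    rw [mem_product, mem_product, mem_Icc, mem_Icc, mem_Icc] at hq
    exact hq.2.2
  have g1 : (cx K x).2.2 - 1 ≤ ix K (2 ^ K * (rv (cx K x - q)).1 + w.2.2) := by
    have e1 : (2 : ℤ) ^ K * (rv (cx K x - q)).1 + w.2.2 =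
        w.2.2 + 2 ^ K * ((cx K x).2.2 - q.2.2) := by
      show (2 : ℤ) ^ K * ((cx K x).2.2 - q.2.2) + w.2.2 = _
      ring
    rw [e1, ix_add, hix]
    linarith [hq3.2]
  have g2 : ix K (2 ^ K * (rv (cx K x - q)).1 + 2 ^ K + w.2.2) ≤ (cx K x).2.2 + 1 := by
    have e1 : (2 : ℤ) ^ K * (rv (cx K x - q)).1 + 2 ^ K + w.2.2 =
        w.2.2 + 2 ^ K * ((cx K x).2.2 - q.2.2 + 1) := by
      show (2 : ℤ) ^ K * ((cx K x).2.2 - q.2.2) + 2 ^ K + w.2.2 = _
      ring
    rw [e1, ix_add, hix]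
    linarith [hq3.1]
  have rowB : ∀ k < K, ∀ a m y : ℤ, ∑ x0 ∈ iv k a, H433.rt L
      (eb L e (fun k' x' y' => Sum.elim (0 : ι → ℝ) (shB K (cx K x) w (b x0) k' x' y'))
        (L + (k + 1))) (k + 1) m y ≤ (if ix K (y + w.1) = (cx K x).1 then N0 else 0) * 2 ^ k := by
    intro k hk a m y
    split_ifs with hy
    · have h1 := H973.RowPM.hF (M := cx K x) he hm h hK hp0 hl1 hf rfl rfl w k hk a m y
      exact h1
    · refine le_trans (le_of_eq (sum_eq_zero fun x0 _ => ?_)) (le_of_eq (zero_mul _).symm)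
      rw [H973.RowPM.rt_inr he hm]
      have e1 : ∀ y2, shB K (cx K x) w (b x0) (k + 1) y y2 = 0 := by
        intro y2
        unfold H747.shB H747.sft
        rw [if_neg fun h => hy h.1]
      simp only [e1, zero_dotProduct, sum_const_zero, mul_zero]
  have rowC : ∀ k < K, ∀ a m y : ℤ, ∑ x0 ∈ iv k a, H433.rt L
      (ec L e (shC K (cx K x) w (Cz ez C x0)) (L + (k + 1))) (k + 1) m y ≤
        (if ix K (y + w.1) = (cx K x).1 then N0 else 0) * 2 ^ k := by
    intro k hk a m y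
    split_ifs with hy
    · have h1 := H973.RowPM.hH (M := cx K x) he hm h hK hez.le hl1 (H973.RowPM.sqrt_inv_sq hez)
        rfl rfl w k hk a m y
      refine le_trans h1 (mul_le_mul_of_nonneg_right ?_ (by positivity))
      have h2 : lam1 p s r ≤ p.e * lam1 p s r := le_mul_of_one_le_left hl1 hpe
      rw [hN0]
      linarith
    · refine le_trans (le_of_eq (sum_eq_zero fun x0 _ => ?_)) (le_of_eq (zero_mul _).symm)
      rw [H973.RowPM.rt_inl he hm]
      have e1 : ∀ z, shC K (cx K x) w (Cz ez C x0) (k + 1) z y = 0 := by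
        intro z
        unfold H747.shC H747.sft
        rw [if_neg fun h => hy h.2]
      simp only [e1, zero_dotProduct, sum_const_zero, mul_zero]
  have key := crH (K := K) (M := cx K x) (Q := rv (cx K x - q)) (h := w.2.2) (h1 := w.1) (t := t)
    (c := fun x0 k => ix k (ys (-x0) w) - j)
    (F := fun x0 => eb L e (fun k' x' y' => Sum.elim (0 : ι → ℝ) (shB K (cx K x) w (b x0) k' x' y')))
    (H := fun x0 => ec L e (shC K (cx K x) w (Cz ez C x0)))
    (lam := fun y => if ix K (y + w.1) = (cx K x).1 then N0 else 0)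
    he hm hε hκ ho hl hR g1 g2
    (fun k _ i => by
      obtain ⟨v, hv⟩ := ys_two k i (3 - w.1 - w.2.1 - w.2.2) j
      refine ⟨v, fun y hy => ?_⟩
      have e1 : ys (-y) w = -y + (3 - w.1 - w.2.1 - w.2.2) := by
        unfold H795.ys
        ring
      show ix (k + 1) (ys (-y) w) - j = v ∨ ix (k + 1) (ys (-y) w) - j = v + 1
      rw [e1]
      exact hv y hy)
    (fun y => by
      show 0 ≤ (if ix K (y + w.1) = (cx K x).1 then N0 else 0)
      split_ifs
      · exact hN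
      · exact le_rfl)
    (fun k hk a _ m _ y _ => rowB k hk a m y)
    (fun k hk a _ m _ y _ => rowC k hk a m y)
  refine (le_of_eq rfl).trans (key.trans ?_)
  refine mul_le_mul_of_nonneg_left ?_ (by positivity)
  have t1 : ∑ y ∈ iv K (rv (cx K x - q)).2.2,
      (if ix K (y + w.1) = (cx K x).1 then N0 else 0) * (GT u (y + w.1) K (cx K x).2.1).trace ≤
      N0 * (2 ^ K * s) := by
    have t2 : ∀ y ∈ iv K (rv (cx K x - q)).2.2,
        (if ix K (y + w.1) = (cx K x).1 then N0 else 0) *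
          (GT u (y + w.1) K (cx K x).2.1).trace =
        N0 * (if ix K (y + w.1) = (cx K x).1 then (GT u (y + w.1) K (cx K x).2.1).trace
          else 0) := by
      intro y _
      split_ifs
      · rfl
      · rw [zero_mul, mul_zero]
    rw [sum_congr rfl t2, ← mul_sum]
    refine mul_le_mul_of_nonneg_left ?_ hN
    exact (sum_root (f := fun y => (GT u y K (cx K x).2.1).trace)
      fun y => GT_tr_nonneg u y K _).trans (tr_cls hcl)
  have l0 : 0 ≤ (2 * l)⁻¹ := by positivity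
  have t3 := mul_le_mul_of_nonneg_left (mul_le_mul_of_nonneg_left (mul_le_mul_of_nonneg_left t1 l0)
    (by positivity : (0 : ℝ) ≤ 4 ^ K)) (by norm_num : (0 : ℝ) ≤ 136400)
  refine t3.trans (le_of_eq ?_)
  have e8 : (8 : ℝ) ^ K = 4 ^ K * 2 ^ K := by
    rw [← mul_pow]
    norm_num
  rw [e8, hN0]
  ring

end

end Vale.Agent.P141.H893.Cr
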